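import Vale.Agent.P150.Fast.Ent.Tensor

/-!
# P150 fast side (B): decay of entropy along the heat-bath semigroup, Pinsker, conclusion
-/

open Finset Matrix

namespace Vale.Agent.P150.Fast.Ent

variable {ι : Type} [Fintype ι] [DecidableEq ι] {J : ι → ι → ℝ} {h : ι → ℝ}

theorem cond_eq_sum (i : ι) (f : (ι → Bool) → ℝ) (x : ι → Bool) :
    cond J h i f x = ∑ y, f y * cond J h i (Pi.single y 1) x := by
  simp [cond, Pi.single_apply, mul_add, Finset.sum_add_distrib]
  ring

theorem lapMat_mulVec (f : (ι → Bool) → ℝ) : lapMat J h *ᵥ f = lap J h f := by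
  funext x
  have e : ∀ i : ι, ∑ y, (cond J h i (Pi.single y 1) x - Pi.single (M := fun _ => ℝ) y 1 x) * f y
      = cond J h i f x - f x := fun i => by
    rw [cond_eq_sum i f x]
    simp only [sub_mul]
    rw [Finset.sum_sub_distrib]
    simp [Pi.single_apply, mul_comm]
  simp only [Matrix.mulVec, dotProduct, lapMat, Matrix.of_apply, lap, Finset.sum_mul]
  rw [Finset.sum_comm]
  exact Finset.sum_congr rfl fun i _ => e i

theorem lap_one : lapMat J h *ᵥ (fun _ => (1 : ℝ)) = 0 := by
  rw [lapMat_mulVec]
  funext x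
  simp only [lap, cond, Pi.zero_apply]
  exact Finset.sum_eq_zero fun i _ => by ring

theorem mean_lap (hJ : IsCoupling J) (f : (ι → Bool) → ℝ) : mean J h (lap J h f) = 0 := by
  show mean J h (fun x => ∑ i, (cond J h i f x - f x)) = 0
  rw [mean_sum]
  exact Finset.sum_eq_zero fun i _ => by rw [mean_sub, mean_cond hJ, sub_self]

theorem mean_lap_symm (hJ : IsCoupling J) (u v : (ι → Bool) → ℝ) :
    mean J h (fun x => u x * lap J h v x) = mean J h (fun x => lap J h u x * v x) := by
  simp only [lap, Finset.mul_sum, Finset.sum_mul, mul_sub, sub_mul]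
  rw [mean_sum, mean_sum]
  refine Finset.sum_congr rfl fun i _ => ?_
  rw [mean_sub, mean_sub, mean_cond_symm hJ i u v]
  congr 2
  funext x
  ring

/-- The action of the semigroup. -/
noncomputable def sg (J : ι → ι → ℝ) (h : ι → ℝ) (t : ℝ) (g : (ι → Bool) → ℝ) :
    (ι → Bool) → ℝ :=
  NormedSpace.exp (t • lapMat J h) *ᵥ g

theorem sg_add (t : ℝ) (g k : (ι → Bool) → ℝ) : sg J h t (g + k) = sg J h t g + sg J h t k :=
  Matrix.mulVec_add _ _ _

theorem sg_smul (t c : ℝ) (g : (ι → Bool) → ℝ) : sg J h t (c • g) = c • sg J h t g :=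
  Matrix.mulVec_smul _ _ _

theorem sg_single (t : ℝ) (z y : ι → Bool) :
    sg J h t (Pi.single z 1) y = NormedSpace.exp (t • lapMat J h) y z := by
  simp [sg]

section analysis
open scoped Matrix.Norms.Operator

/-- An entry of the action on a fixed vector, as a linear function of the matrix. -/
noncomputable def evalLin (g : (ι → Bool) → ℝ) (y : ι → Bool) :
    Matrix (ι → Bool) (ι → Bool) ℝ →ₗ[ℝ] ℝ where
  toFun M := (M *ᵥ g) y
  map_add' M N := by simp [Matrix.add_mulVec]
  map_smul' c M := by simp [Matrix.smul_mulVec]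

theorem sg_hasDerivAt (t : ℝ) (g : (ι → Bool) → ℝ) (y : ι → Bool) :
    HasDerivAt (fun s => sg J h s g y) (lap J h (sg J h t g) y) t := by
  have hd := hasDerivAt_exp_smul_const' (lapMat J h) t
  have h2 := (LinearMap.toContinuousLinearMap (evalLin g y)).hasFDerivAt.comp_hasDerivAt t hd
  rw [← lapMat_mulVec, sg, Matrix.mulVec_mulVec]
  exact h2

theorem sg_hasDerivAt' (t : ℝ) (g : (ι → Bool) → ℝ) (y : ι → Bool) :
    HasDerivAt (fun s => sg J h s g y) (sg J h t (lapMat J h *ᵥ g) y) t := by
  have hd := hasDerivAt_exp_smul_const (lapMat J h) t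
  have h2 := (LinearMap.toContinuousLinearMap (evalLin g y)).hasFDerivAt.comp_hasDerivAt t hd
  rw [sg, Matrix.mulVec_mulVec]
  exact h2

theorem sg_zero (g : (ι → Bool) → ℝ) : sg J h 0 g = g := by
  simp [sg, NormedSpace.exp_zero]

theorem exp_entry_nonneg {t : ℝ} (ht : 0 ≤ t) (x y : ι → Bool) :
    0 ≤ NormedSpace.exp (t • lapMat J h) x y := by
  set c : ℝ := t * Fintype.card ι with hc
  set M : Matrix (ι → Bool) (ι → Bool) ℝ :=
    Matrix.of (fun a b => t * ∑ i, cond J h i (Pi.single b 1) a) with hM
  have hL : t • lapMat J h = (-c) • (1 : Matrix (ι → Bool) (ι → Bool) ℝ) + M := by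
    ext a b
    simp only [Matrix.smul_apply, Matrix.add_apply, lapMat, lap, Matrix.of_apply, hM,
      Matrix.one_apply, smul_eq_mul, Finset.sum_sub_distrib, Finset.sum_const, Finset.card_univ,
      nsmul_eq_mul, Pi.single_apply, hc]
    split_ifs <;> ring
  have hMnn : ∀ (k : ℕ) a b, 0 ≤ (M ^ k) a b := by
    intro k
    induction k with
    | zero => intro a b; rw [pow_zero, Matrix.one_apply]; split_ifs <;> norm_num
    | succ k ih =>
      intro a b
      rw [pow_succ, Matrix.mul_apply]
      refine Finset.sum_nonneg fun z _ => mul_nonneg (ih a z) ?_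
      simp only [hM, Matrix.of_apply]
      refine mul_nonneg ht (Finset.sum_nonneg fun i _ => ?_)
      simp only [cond, cmean, Pi.single_apply]
      obtain ⟨h1, h2⟩ := half_tanh (field J h i z)
      rw [h1, h2]
      refine add_nonneg (mul_nonneg (by positivity) ?_) (mul_nonneg (by positivity) ?_) <;>
        split_ifs <;> norm_num
  have hdiag : NormedSpace.exp ((-c) • (1 : Matrix (ι → Bool) (ι → Bool) ℝ))
      = Real.exp (-c) • (1 : Matrix (ι → Bool) (ι → Bool) ℝ) := by
    rw [Matrix.smul_one_eq_diagonal, Matrix.exp_diagonal, Matrix.smul_one_eq_diagonal]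
    congr 1
    funext z
    rw [Pi.coe_exp, ← congrFun Real.exp_eq_exp_ℝ]
  rw [hL, Matrix.exp_add_of_commute _ _ ((Commute.one_left _).smul_left _), hdiag, smul_mul_assoc,
    one_mul, Matrix.smul_apply, smul_eq_mul]
  refine mul_nonneg (Real.exp_pos _).le ?_
  have hs := Pi.hasSum.1 (Pi.hasSum.1 (NormedSpace.exp_series_hasSum_exp' (𝕂 := ℝ) M) x) y
  refine hs.nonneg fun k => ?_
  simp only [Matrix.smul_apply, smul_eq_mul]
  exact mul_nonneg (by positivity) (hMnn k x y)

end analysis

theorem sg_one (t : ℝ) : sg J h t (fun _ => (1 : ℝ)) = fun _ => 1 := by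
  funext y
  have hd : ∀ s, HasDerivAt (fun s => sg J h s (fun _ => (1 : ℝ)) y) 0 s := fun s => by
    have := sg_hasDerivAt' (J := J) (h := h) s (fun _ => (1 : ℝ)) y
    rw [lap_one] at this
    simpa [sg] using this
  have := is_const_of_deriv_eq_zero (fun s => (hd s).differentiableAt) (fun s => (hd s).deriv) t 0
  rw [this, sg_zero]

theorem sg_ge {t ε : ℝ} (ht : 0 ≤ t) {g : (ι → Bool) → ℝ} (hg : ∀ z, ε ≤ g z) (y : ι → Bool) :
    ε ≤ sg J h t g y := by
  have e : g = (fun z => g z - ε) + ε • fun _ => (1 : ℝ) := by funext z; simp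
  rw [e, sg_add, sg_smul, sg_one]
  simp only [Pi.add_apply, Pi.smul_apply, smul_eq_mul, mul_one]
  refine le_add_of_nonneg_left (Finset.sum_nonneg fun z _ => mul_nonneg (exp_entry_nonneg ht _ _) ?_)
  linarith [hg z]

theorem mean_sg (hJ : IsCoupling J) (t : ℝ) (g : (ι → Bool) → ℝ) :
    mean J h (sg J h t g) = mean J h g := by
  have hd : ∀ s, HasDerivAt (fun s => mean J h (sg J h s g)) (mean J h (lap J h (sg J h s g))) s :=
    fun s => HasDerivAt.fun_sum fun z _ => (sg_hasDerivAt s g z).const_mul _
  simp only [mean_lap hJ] at hd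
  have := is_const_of_deriv_eq_zero (fun s => (hd s).differentiableAt) (fun s => (hd s).deriv) t 0
  rw [this, sg_zero]

theorem sg_symm (hJ : IsCoupling J) (t : ℝ) (u v : (ι → Bool) → ℝ) :
    mean J h (fun z => sg J h t u z * v z) = mean J h (fun z => u z * sg J h t v z) := by
  have hd : ∀ s, HasDerivAt (fun s => mean J h (fun z => sg J h s u z * sg J h (t - s) v z))
      (mean J h (fun z => lap J h (sg J h s u) z * sg J h (t - s) v z
        - sg J h s u z * lap J h (sg J h (t - s) v) z)) s := fun s => by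
    refine HasDerivAt.fun_sum fun z _ => HasDerivAt.const_mul _ ?_
    have h1 := sg_hasDerivAt (J := J) (h := h) s u z
    have h2 := (sg_hasDerivAt (J := J) (h := h) (t - s) v z).comp s ((hasDerivAt_id s).const_sub t)
    refine (h1.mul h2).congr_deriv ?_
    simp
    ring
  simp only [mean_sub, mean_lap_symm hJ, sub_self] at hd
  have := is_const_of_deriv_eq_zero (fun s => (hd s).differentiableAt) (fun s => (hd s).deriv) t 0
  simpa [sg_zero] using this

theorem weight_mul_exp_symm (hJ : IsCoupling J) (t : ℝ) (x y : ι → Bool) :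
    weight J h y * NormedSpace.exp (t • lapMat J h) y x
      = weight J h x * NormedSpace.exp (t • lapMat J h) x y := by
  have := sg_symm (h := h) hJ t (Pi.single x 1) (Pi.single y 1)
  simpa [mean, Pi.single_apply, sg_single, Finset.sum_ite_eq'] using this

/-- Entropy production dominates the sum of the conditional entropies. -/
theorem production_le (hJ : IsCoupling J) {f : (ι → Bool) → ℝ} (hf : ∀ x, 0 < f x) :
    mean J h (fun x => (Real.log (f x) + 1) * lap J h f x) ≤ -∑ i, entAt J h i f := by
  simp only [add_mul, one_mul]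
  rw [mean_add, mean_lap hJ, add_zero]
  simp only [lap, Finset.mul_sum, mul_sub]
  rw [mean_sum, ← Finset.sum_neg_distrib]
  refine Finset.sum_le_sum fun i _ => ?_
  have hA : ∀ x, 0 < (1 + cmean J h i x) / 2 ∧ 0 < (1 - cmean J h i x) / 2 := fun x => by
    obtain ⟨h1, h2⟩ := half_tanh (field J h i x)
    simp only [cmean, h1, h2]
    constructor <;> positivity
  rw [mean_sub, entAt, mean_mul_cond hJ i (fun x => Real.log (f x)) f,
    show (fun x => Real.log (f x) * f x) = fun x => phi (f x) from funext fun x => mul_comm _ _]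
  have : mean J h (fun x => cond J h i (fun x => Real.log (f x)) x * cond J h i f x)
      ≤ mean J h (fun x => phi (cond J h i f x)) := mean_mono fun x => by
    obtain ⟨ha, hb⟩ := hA x
    have hj := strictConcaveOn_log_Ioi.concaveOn.2 (hf (Function.update x i true))
      (hf (Function.update x i false)) ha.le hb.le (by ring)
    rw [phi, mul_comm (cond J h i f x)]
    refine mul_le_mul_of_nonneg_right hj ?_
    exact add_nonneg (mul_nonneg ha.le (hf _).le) (mul_nonneg hb.le (hf _).le)
  linarith

/-- Exponential decay of the entropy. -/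
theorem entropy_decay (hJ : IsCoupling J) {C : ℝ} (hC : 0 < C)
    (hT : ∀ f : (ι → Bool) → ℝ, (∀ x, 0 < f x) → ent J h f ≤ C * ∑ j, entAt J h j f)
    {g : (ι → Bool) → ℝ} (hg : ∀ x, 0 < g x) (h1 : mean J h g = 1) {t : ℝ} (ht : 0 ≤ t) :
    mean J h (fun x => phi (sg J h t g x))
      ≤ Real.exp (-t / C) * mean J h (fun x => phi (g x)) := by
  obtain ⟨z, -, hz⟩ := Finset.exists_min_image Finset.univ g Finset.univ_nonempty
  have hpos : ∀ s, 0 ≤ s → ∀ x, 0 < sg J h s g x := fun s hs x =>
    (hg z).trans_le (sg_ge hs (fun w => hz w (Finset.mem_univ w)) x)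
  set E : ℝ → ℝ := fun s => mean J h (fun x => phi (sg J h s g x)) * Real.exp (s / C) with hE
  have hd : ∀ s, 0 ≤ s → HasDerivAt E
      (mean J h (fun x => (Real.log (sg J h s g x) + 1) * lap J h (sg J h s g) x)
          * Real.exp (s / C)
        + mean J h (fun x => phi (sg J h s g x)) * (Real.exp (s / C) * (1 / C))) s := fun s hs => by
    refine HasDerivAt.mul (HasDerivAt.fun_sum fun x _ => HasDerivAt.const_mul _ ?_)
      ((Real.hasDerivAt_exp _).comp s ((hasDerivAt_id s).div_const C))
    exact (Real.hasDerivAt_mul_log (hpos s hs x).ne').comp s (sg_hasDerivAt s g x)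
  have hanti : AntitoneOn E (Set.Ici 0) := by
    refine antitoneOn_of_hasDerivWithinAt_nonpos (convex_Ici 0)
      (fun s hs => (hd s hs).continuousAt.continuousWithinAt)
      (fun s hs => (hd s (interior_subset hs)).hasDerivWithinAt) fun s hs => ?_
    have hs0 : 0 ≤ s := interior_subset hs
    have p := production_le (h := h) hJ (hpos s hs0)
    have q := hT _ (hpos s hs0)
    rw [ent, mean_sg hJ, h1] at q
    simp only [phi, Real.log_one, mul_zero, sub_zero] at q
    have q' : mean J h (fun x => phi (sg J h s g x)) / C ≤ ∑ j, entAt J h j (sg J h s g) := by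
      rw [div_le_iff₀ hC, mul_comm]; exact q
    have := mul_le_mul_of_nonneg_right
      (show mean J h (fun x => (Real.log (sg J h s g x) + 1) * lap J h (sg J h s g) x)
        + mean J h (fun x => phi (sg J h s g x)) / C ≤ 0 by linarith) (Real.exp_pos (s / C)).le
    rw [zero_mul] at this
    refine le_trans (le_of_eq ?_) this
    ring
  have := hanti Set.self_mem_Ici ht ht
  simp only [hE, sg_zero, zero_div, Real.exp_zero, mul_one] at this
  rw [neg_div, Real.exp_neg, ← div_eq_inv_mul, le_div_iff₀ (Real.exp_pos _)]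
  exact this

theorem klFun_ge {u : ℝ} (hu : 0 < u) :
    3 * (u - 1) ^ 2 ≤ (2 * u + 4) * (phi u - u + 1) := by
  have hψ : ∀ v : ℝ, 0 < v →
      HasDerivAt (fun v => (v + 1) * Real.log v - 2 * (v - 1)) (Real.log v + 1 / v - 1) v :=
    fun v hv => by
      refine ((((hasDerivAt_id v).add_const 1).mul (Real.hasDerivAt_log hv.ne')).sub
        (((hasDerivAt_id v).sub_const 1).const_mul 2)).congr_deriv ?_
      simp
      field_simp
      ring
  have hψm : MonotoneOn (fun v => (v + 1) * Real.log v - 2 * (v - 1)) (Set.Ioi 0) :=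
    monotoneOn_of_hasDerivWithinAt_nonneg (convex_Ioi 0)
      (fun v hv => (hψ v hv).continuousAt.continuousWithinAt)
      (fun v hv => (hψ v (interior_subset hv)).hasDerivWithinAt) fun v hv => by
        have := Real.one_sub_inv_le_log_of_pos (show 0 < v from interior_subset hv)
        rw [one_div]; linarith
  set G : ℝ → ℝ := fun v => (2 * v + 4) * (v * Real.log v - v + 1) - 3 * (v - 1) ^ 2 with hG
  have hGd : ∀ v : ℝ, 0 < v →
      HasDerivAt G (4 * ((v + 1) * Real.log v - 2 * (v - 1))) v := fun v hv => by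
    refine (((((hasDerivAt_id v).const_mul 2).add_const 4).mul
      (((Real.hasDerivAt_mul_log hv.ne').sub (hasDerivAt_id v)).add_const 1)).sub
      ((((hasDerivAt_id v).sub_const 1).pow 2).const_mul 3)).congr_deriv ?_
    simp
    ring
  suffices 0 ≤ G u by simp only [hG, phi] at this ⊢; linarith
  have hG1 : G 1 = 0 := by simp [hG]
  have hψ1 : (fun v : ℝ => (v + 1) * Real.log v - 2 * (v - 1)) 1 = 0 := by simp
  rcases le_total 1 u with h1 | h1
  · have hm : MonotoneOn G (Set.Ici 1) :=
      monotoneOn_of_hasDerivWithinAt_nonneg (convex_Ici 1)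
        (fun v hv => (hGd v (one_pos.trans_le hv)).continuousAt.continuousWithinAt)
        (fun v hv => (hGd v (one_pos.trans_le (interior_subset hv))).hasDerivWithinAt) fun v hv => by
          have hv1 : (1 : ℝ) ≤ v := interior_subset hv
          have := hψm (Set.mem_Ioi.2 one_pos) (Set.mem_Ioi.2 (one_pos.trans_le hv1)) hv1
          rw [hψ1] at this
          linarith
    exact hG1 ▸ hm Set.self_mem_Ici h1 h1
  · have hm : AntitoneOn G (Set.Ioc 0 1) :=
      antitoneOn_of_hasDerivWithinAt_nonpos (convex_Ioc 0 1)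
        (fun v hv => (hGd v hv.1).continuousAt.continuousWithinAt)
        (fun v hv => (hGd v (interior_subset hv).1).hasDerivWithinAt) fun v hv => by
          obtain ⟨hv0, hv1⟩ := interior_subset hv
          have := hψm (Set.mem_Ioi.2 hv0) (Set.mem_Ioi.2 one_pos) hv1
          rw [hψ1] at this
          linarith
    exact hG1 ▸ hm ⟨hu, h1⟩ ⟨one_pos, le_rfl⟩ h1

/-- Pinsker's inequality. -/
theorem pinsker {f : (ι → Bool) → ℝ} (hf : ∀ x, 0 < f x) (h1 : mean J h f = 1) :
    mean J h (fun x => |f x - 1|) ^ 2 ≤ 2 * mean J h (fun x => phi (f x)) := by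
  have hk : ∀ x, 0 ≤ phi (f x) - f x + 1 := fun x =>
    nonneg_of_mul_nonneg_right (le_trans (by positivity) (klFun_ge (hf x))) (by linarith [hf x])
  refine le_trans (Finset.sum_sq_le_sum_mul_sum_of_sq_le_mul (R := ℝ) Finset.univ
    (f := fun x => weight J h x * ((2 * f x + 4) / 3))
    (g := fun x => weight J h x * (phi (f x) - f x + 1))
    (fun x _ => mul_nonneg (weight_pos J h x).le (by linarith [hf x]))
    (fun x _ => mul_nonneg (weight_pos J h x).le (hk x)) fun x _ => ?_) (le_of_eq ?_)
  · rw [mul_pow, sq_abs]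
    nlinarith [mul_le_mul_of_nonneg_left (klFun_ge (hf x)) (sq_nonneg (weight J h x))]
  · show mean J h (fun x => (2 * f x + 4) / 3) * mean J h (fun x => phi (f x) - f x + 1) = _
    have e : mean J h (fun x => (2 * f x + 4) / 3) = 2 := by
      rw [show (fun x => (2 * f x + 4) / 3) = fun x => 2 / 3 * f x + 4 / 3 from
        funext fun x => by ring, mean_add, mean_const_mul, mean_const, h1]
      norm_num
    rw [e, mean_add, mean_sub, mean_const, h1, sub_add_cancel]

/-- Covariance bounds imply exponential decay of the distance to equilibrium. -/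
theorem entropyFromCov : EntropyFromCov := by
  intro ι _ _ _ J η C hJ hA hη hCb h x t ht
  have hκ := atConst_pos η _ hη
  have hC : 0 < C := hκ.trans_le hCb
  have hT : ∀ f : (ι → Bool) → ℝ, (∀ x, 0 < f x) → ent J h f ≤ C * ∑ j, entAt J h j f := by
    intro f hf
    refine (tensor J η hJ hA hη h hf).2.trans (mul_le_mul_of_nonneg_right hCb ?_)
    refine Finset.sum_nonneg fun j _ => ?_
    rw [entAt, sub_nonneg, ← mean_cond hJ j (fun x => phi (f x))]
    refine mean_mono fun y => ?_
    obtain ⟨h1, h2⟩ := half_tanh (field J h j y)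
    exact Real.convexOn_mul_log.2 (hf (Function.update y j true)).le (hf (Function.update y j false)).le
      (by simp only [cmean, h1]; positivity) (by simp only [cmean, h2]; positivity) (by ring)
  set P := NormedSpace.exp (t • lapMat J h) with hP
  set D := ∑ y, |P x y - weight J h y| with hD
  have hw := weight_pos J h x
  set L := Real.log (1 / weight J h x) with hL
  -- the smoothed starting density
  have key : ∀ ε : ℝ, 0 < ε → ε < 1 →
      2 * (1 - ε) * (D / 2) ^ 2 ≤ Real.exp (-t / C) * L := by
    intro ε h0 h1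
    set g : (ι → Bool) → ℝ := (1 - ε) • Pi.single x (weight J h x)⁻¹ + ε • fun _ => (1 : ℝ) with hg
    have hgy : ∀ y, g y = (1 - ε) * (if y = x then (weight J h x)⁻¹ else 0) + ε := fun y => by
      simp [hg, Pi.single_apply]
    have hgp : ∀ y, 0 < g y := fun y => by
      rw [hgy]
      exact add_pos_of_nonneg_of_pos (mul_nonneg (by linarith) (by split_ifs <;> positivity)) h0
    have hgm : mean J h g = 1 := by
      rw [show g = fun y => _ from funext hgy, mean_add, mean_const, mean_const_mul]
      simp [mean, hw.ne']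
    have hent : mean J h (fun y => phi (g y)) ≤ (1 - ε) * L := by
      refine le_trans (mean_mono (g := fun y => (1 - ε) * phi (if y = x then (weight J h x)⁻¹ else 0))
        fun y => ?_) (le_of_eq ?_)
      · rw [hgy]
        have := Real.convexOn_mul_log.2 (x := if y = x then (weight J h x)⁻¹ else 0)
          (by show (0 : ℝ) ≤ _; split_ifs <;> positivity) (y := 1) (show (1 : ℝ) ∈ Set.Ici 0 from zero_le_one' ℝ)
          (sub_nonneg.2 h1.le) h0.le (by ring)
        simpa [phi] using this
      · rw [mean_const_mul]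
        simp [mean, phi, hL, apply_ite, mul_ite, hw.ne']
    have hft : ∀ y, sg J h t g y - 1 = (1 - ε) * ((P x y - weight J h y) / weight J h y) := fun y => by
      have e : (Pi.single x (weight J h x)⁻¹ : (ι → Bool) → ℝ)
          = (weight J h x)⁻¹ • Pi.single x 1 := by
        rw [← Pi.single_smul]; simp
      rw [hg, sg_add, sg_smul, sg_smul, sg_one, e, sg_smul]
      simp only [Pi.add_apply, Pi.smul_apply, smul_eq_mul, sg_single]
      have hy := (weight_pos J h y).ne'
      have := weight_mul_exp_symm (h := h) hJ t x y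
      rw [hP]
      field_simp
      linear_combination (1 - ε) * this
    have hsp : ∀ y, 0 < sg J h t g y := fun y => by
      obtain ⟨z, -, hz⟩ := Finset.exists_min_image Finset.univ g Finset.univ_nonempty
      exact (hgp z).trans_le (sg_ge ht (fun w => hz w (Finset.mem_univ w)) y)
    have p := pinsker (h := h) hsp (by rw [mean_sg hJ, hgm])
    have q := entropy_decay hJ hC hT hgp hgm ht
    have e : mean J h (fun y => |sg J h t g y - 1|) = (1 - ε) * D := by
      rw [hD, Finset.mul_sum]
      refine Finset.sum_congr rfl fun y _ => ?_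
      show weight J h y * |sg J h t g y - 1| = _
      rw [hft, abs_mul, abs_div, abs_of_pos (weight_pos J h y), abs_of_pos (sub_pos.2 h1)]
      field_simp [(weight_pos J h y).ne']
    rw [e] at p
    have := q.trans (mul_le_mul_of_nonneg_left hent (Real.exp_pos _).le)
    refine le_of_mul_le_mul_left (a := 1 - ε) ?_ (sub_pos.2 h1)
    nlinarith
  refine le_of_forall_pos_le_add fun δ hδ => ?_
  have hD0 : 0 ≤ (D / 2) ^ 2 := sq_nonneg _
  set ε := min (1 / 2) (δ / (2 * (D / 2) ^ 2 + 1))
  have hε : 0 < ε := lt_min (by norm_num) (by positivity)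
  have hε2 : ε * (2 * (D / 2) ^ 2 + 1) ≤ δ := (le_div_iff₀ (by positivity)).1 (min_le_right _ _)
  have := key ε hε ((min_le_left _ _).trans_lt (by norm_num))
  show 2 * (D / 2) ^ 2 ≤ _
  linarith

end Vale.Agent.P150.Fast.Ent
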