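import Vale.Agent.P150.Fast.Ent.Gibbs

/-!
# P150 fast side (B): covariance bounds for all tilts give entropic independence

The sum over sites of the relative entropies of the one-site marginals is at most `η` times the
relative entropy.  The proof is a discretised convexity argument along the segment of means.
-/

open Finset

namespace Vale.Agent.P150.Fast.Ent

variable {ι : Type} [Fintype ι] [DecidableEq ι]

/-- `u log u`. -/
noncomputable def phi (u : ℝ) : ℝ := u * Real.log u

/-- The entropy of a positive function. -/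
noncomputable def ent (J : ι → ι → ℝ) (h : ι → ℝ) (f : (ι → Bool) → ℝ) : ℝ :=
  mean J h (fun x => phi (f x)) - phi (mean J h f)

/-- The expected conditional entropy at a site. -/
noncomputable def entAt (J : ι → ι → ℝ) (h : ι → ℝ) (j : ι) (f : (ι → Bool) → ℝ) : ℝ :=
  mean J h (fun x => phi (f x)) - mean J h (fun x => phi (cond J h j f x))

/-- The entropy of the marginal at a site. -/
noncomputable def margEnt (J : ι → ι → ℝ) (h : ι → ℝ) (i : ι) (f : (ι → Bool) → ℝ) : ℝ :=
  ∑ s, margW J h i s * phi (mean (subJ J i) (subh J h i s) (fun y => f (glue i s y)))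
    - phi (mean J h f)

/-- Relative entropy of two spins with means `m` and `a`. -/
noncomputable def kfun (a m : ℝ) : ℝ :=
  phi ((1 + m) / 2) - (1 + m) / 2 * Real.log ((1 + a) / 2)
    + (phi ((1 - m) / 2) - (1 - m) / 2 * Real.log ((1 - a) / 2))

/-- Its derivative in `m`. -/
noncomputable def kder (a m : ℝ) : ℝ :=
  (Real.log ((1 + m) / 2) - Real.log ((1 + a) / 2)) / 2
    - (Real.log ((1 - m) / 2) - Real.log ((1 - a) / 2)) / 2

theorem phi_taylor {x d : ℝ} (hx : 0 < x) (hd : |d| ≤ x / 2) :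
    phi (x + d) ≤ phi x + (Real.log x + 1) * d + d ^ 2 / (2 * x) + 4 * |d| ^ 3 / x ^ 2 := by
  obtain ⟨hd1, hd2⟩ := abs_le.1 hd
  set u := d / x with hu
  have hdu : d = x * u := by rw [hu]; field_simp
  have hua : |u| ≤ 1 / 2 := by
    rw [hu, abs_div, abs_of_pos hx, div_le_iff₀ hx]; linarith
  obtain ⟨hu1, hu2⟩ := abs_le.1 hua
  have hlog : Real.log (1 + u) ≤ u - u ^ 2 / 2 + 2 * |u| ^ 3 := by
    have h := Real.abs_log_sub_add_sum_range_le (x := -u) (by rw [abs_neg]; linarith) 2
    simp only [Finset.sum_range_succ, Finset.sum_range_zero, abs_neg, sub_neg_eq_add] at h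
    have h3 : |u| ^ (2 + 1) / (1 - |u|) ≤ 2 * |u| ^ 3 := by
      rw [div_le_iff₀ (by linarith), show (2 + 1 : ℕ) = 3 from rfl]
      nlinarith [mul_le_mul_of_nonneg_left hua (pow_nonneg (abs_nonneg u) 3)]
    have := (abs_le.1 (h.trans h3)).2
    norm_num at this
    linarith
  have h1u : 0 < 1 + u := by linarith
  have e : phi (x + d) = (x + d) * Real.log x + (x + d) * Real.log (1 + u) := by
    rw [phi, ← mul_add, ← Real.log_mul hx.ne' h1u.ne', mul_add, mul_one, ← hdu]
  have hcube : -(u ^ 3) ≤ |u| ^ 3 := by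
    have := neg_abs_le (u ^ 3)
    rw [abs_pow] at this
    linarith
  have hfac : (1 + u) * |u| ^ 3 ≤ 3 / 2 * |u| ^ 3 :=
    mul_le_mul_of_nonneg_right (by linarith) (pow_nonneg (abs_nonneg u) 3)
  have key : (x + d) * Real.log (1 + u) ≤ x * (u + u ^ 2 / 2 + 4 * |u| ^ 3) := by
    calc (x + d) * Real.log (1 + u) = x * ((1 + u) * Real.log (1 + u)) := by rw [hdu]; ring
      _ ≤ x * ((1 + u) * (u - u ^ 2 / 2 + 2 * |u| ^ 3)) :=
          mul_le_mul_of_nonneg_left (mul_le_mul_of_nonneg_left hlog h1u.le) hx.le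
      _ ≤ x * (u + u ^ 2 / 2 + 4 * |u| ^ 3) := by
          refine mul_le_mul_of_nonneg_left ?_ hx.le
          nlinarith [pow_nonneg (abs_nonneg u) 3]
  have e2 : d ^ 2 / (2 * x) = x * (u ^ 2 / 2) := by rw [hdu]; field_simp
  have e3 : 4 * |d| ^ 3 / x ^ 2 = x * (4 * |u| ^ 3) := by
    rw [hdu, abs_mul, abs_of_pos hx]; field_simp
  rw [e, e2, e3, phi]
  nlinarith

theorem kfun_taylor {a m d M : ℝ} (hM : M < 1) (hm : |m| ≤ M) (hd : |d| ≤ (1 - M) / 2) :
    kfun a (m + d) ≤ kfun a m + kder a m * d + d ^ 2 / (2 * (1 - m ^ 2))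
      + 4 * |d| ^ 3 / (1 - M) ^ 2 := by
  obtain ⟨hm1, hm2⟩ := abs_le.1 hm
  have hd2 : |d / 2| ≤ (1 - M) / 4 := by rw [abs_div, abs_two]; linarith
  have hd3 : |-(d / 2)| ≤ (1 - M) / 4 := by rwa [abs_neg]
  have hp := phi_taylor (x := (1 + m) / 2) (d := d / 2) (by linarith) (by linarith)
  have hq := phi_taylor (x := (1 - m) / 2) (d := -(d / 2)) (by linarith) (by linarith)
  rw [show (1 + m) / 2 + d / 2 = (1 + (m + d)) / 2 by ring] at hp
  rw [show (1 - m) / 2 + -(d / 2) = (1 - (m + d)) / 2 by ring, abs_neg] at hq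
  have hc : ∀ y : ℝ, 1 - M ≤ y →
      4 * |d / 2| ^ 3 / (y / 2) ^ 2 ≤ 2 * |d| ^ 3 / (1 - M) ^ 2 := fun y hy => by
    have h0 : (0 : ℝ) < 1 - M := by linarith
    calc 4 * |d / 2| ^ 3 / (y / 2) ^ 2 ≤ 4 * |d / 2| ^ 3 / ((1 - M) / 2) ^ 2 :=
          div_le_div_of_nonneg_left (by positivity) (by positivity)
            (pow_le_pow_left₀ (by linarith) (by linarith) 2)
      _ = _ := by rw [abs_div, abs_two]; field_simp; ring
  have h1 := hc (1 + m) (by linarith)
  have h2 := hc (1 - m) (by linarith)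
  have e : (d / 2) ^ 2 / (2 * ((1 + m) / 2)) + (-(d / 2)) ^ 2 / (2 * ((1 - m) / 2))
      = d ^ 2 / (2 * (1 - m ^ 2)) := by
    have : (1 + m) ≠ 0 := by linarith
    have : (1 - m) ≠ 0 := by linarith
    have : 1 - m ^ 2 ≠ 0 := by
      rw [show 1 - m ^ 2 = (1 + m) * (1 - m) by ring]; positivity
    field_simp
    ring
  have e4 : 4 * |d| ^ 3 / (1 - M) ^ 2 = 2 * (2 * |d| ^ 3 / (1 - M) ^ 2) := by ring
  simp only [kfun, kder]
  linarith

theorem kfun_self (a : ℝ) : kfun a a = 0 := by simp [kfun, phi]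

theorem kder_self (a : ℝ) : kder a a = 0 := by simp [kder]

variable {J : ι → ι → ℝ} {h : ι → ℝ} {η : ℝ}

theorem exp_le_quad {y : ℝ} (hy : |y| ≤ 1) : Real.exp y ≤ 1 + y + y ^ 2 / 2 + |y| ^ 3 := by
  have h := (abs_le.1 (Real.exp_bound hy (n := 3) (by norm_num))).2
  simp only [Finset.sum_range_succ, Finset.sum_range_zero, Nat.factorial] at h
  norm_num at h
  nlinarith [pow_nonneg (abs_nonneg y) 3]

theorem abs_lin_le (u : ι → ℝ) (x : ι → Bool) : |lin u x| ≤ ∑ i, |u i| :=
  (Finset.abs_sum_le_sum_abs _ _).trans (le_of_eq (Finset.sum_congr rfl fun i _ => by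
    rw [abs_mul, abs_spin_eq, mul_one]))

theorem abs_mean_lin_le (u : ι → ℝ) : |∑ i, u i * mag J h i| ≤ ∑ i, |u i| :=
  (Finset.abs_sum_le_sum_abs _ _).trans (Finset.sum_le_sum fun i _ => by
    rw [abs_mul]; exact mul_le_of_le_one_right (abs_nonneg _) (abs_mag_lt i).le)

/-- Convexity of the log-partition function. -/
theorem logZ_add_ge (u : ι → ℝ) :
    logZ J h + ∑ i, u i * mag J h i ≤ logZ J (fun i => h i + u i) := by
  set μ := ∑ i, u i * mag J h i
  have h1 : mean J h (fun x => Real.exp μ * (1 + (lin u x - μ)))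
      ≤ mean J h (fun x => Real.exp (lin u x)) := mean_mono fun x => by
    have := Real.add_one_le_exp (lin u x - μ)
    rw [show lin u x = μ + (lin u x - μ) by ring, Real.exp_add]
    rw [show μ + (lin u x - μ) - μ = lin u x - μ by ring]
    exact mul_le_mul_of_nonneg_left (by linarith) (Real.exp_pos _).le
  rw [mean_const_mul, mean_add, mean_const, mean_sub, mean_const, mean_exp_lin, mean_lin] at h1
  have h2 : Real.exp μ ≤ Real.exp (logZ J (fun i => h i + u i) - logZ J h) := by
    simpa [μ] using h1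
  have := Real.exp_le_exp.1 h2
  linarith

/-- A second-order upper bound on the log-partition function from the covariance bound. -/
theorem logZ_add_le (hC : CovBound J η) (u : ι → ℝ) (hu : ∑ i, |u i| ≤ 1 / 2) :
    logZ J (fun i => h i + u i) ≤ logZ J h + ∑ i, u i * mag J h i
      + η / 2 * ∑ i, u i ^ 2 * (1 - mag J h i ^ 2) + 8 * (∑ i, |u i|) ^ 3 := by
  set μ := ∑ i, u i * mag J h i with hμ
  set S := ∑ i, |u i| with hS
  have hS0 : 0 ≤ S := Finset.sum_nonneg fun i _ => abs_nonneg _
  have hX : ∀ x, |lin u x - μ| ≤ 2 * S := fun x =>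
    (abs_sub _ _).trans (by linarith [abs_lin_le u x, abs_mean_lin_le (J := J) (h := h) u])
  have hv : mean J h (fun x => (lin u x - μ) ^ 2) ≤ η * ∑ i, u i ^ 2 * (1 - mag J h i ^ 2) := by
    have := hC h u
    simp only [var_spin] at this
    refine le_trans (le_of_eq ?_) this
    rw [var, hμ, ← mean_lin]
    rfl
  have h1 : mean J h (fun x => Real.exp (lin u x)) ≤ mean J h (fun x =>
      Real.exp μ * ((1 + 8 * S ^ 3) + (lin u x - μ) + (1 / 2) * (lin u x - μ) ^ 2)) :=
    mean_mono fun x => by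
      rw [show Real.exp (lin u x) = Real.exp μ * Real.exp (lin u x - μ) by
        rw [← Real.exp_add]; ring_nf]
      refine mul_le_mul_of_nonneg_left ?_ (Real.exp_pos _).le
      have := exp_le_quad ((hX x).trans (by linarith))
      have h3 := pow_le_pow_left₀ (abs_nonneg _) (hX x) 3
      nlinarith
  rw [mean_const_mul, mean_add, mean_add, mean_const, mean_sub, mean_const, mean_const_mul,
    mean_exp_lin, mean_lin, ← hμ, sub_self, add_zero] at h1
  have h2 : Real.exp (logZ J (fun i => h i + u i) - logZ J h)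
      ≤ Real.exp (μ + (η / 2 * ∑ i, u i ^ 2 * (1 - mag J h i ^ 2) + 8 * S ^ 3)) := by
    rw [Real.exp_add]
    refine h1.trans (mul_le_mul_of_nonneg_left ?_ (Real.exp_pos _).le)
    have := Real.add_one_le_exp (η / 2 * ∑ i, u i ^ 2 * (1 - mag J h i ^ 2) + 8 * S ^ 3)
    linarith
  have := Real.exp_le_exp.1 h2
  linarith

/-- The tilt with a given mean is optimal. -/
theorem tilt_max {lam m : ι → ℝ} (hm : ∀ i, mag J (fun i => h i + lam i) i = m i) (μ : ι → ℝ) :
    ∑ i, μ i * m i - logZ J (fun i => h i + μ i)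
      ≤ ∑ i, lam i * m i - logZ J (fun i => h i + lam i) := by
  have := logZ_add_ge (J := J) (h := fun i => h i + lam i) (fun i => μ i - lam i)
  simp only [hm, sub_mul, Finset.sum_sub_distrib] at this
  rw [show (fun i => h i + lam i + (μ i - lam i)) = fun i => h i + μ i from funext fun i => by ring]
    at this
  linarith

/-- Every interior mean vector is attained by a tilt. -/
theorem exists_tilt (hC : CovBound J η) (hη : 0 < η) (m : ι → ℝ) (hm : ∀ i, |m i| < 1) :
    ∃ lam : ι → ℝ, ∀ i, mag J (fun i => h i + lam i) i = m i := by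
  set Φ : (ι → ℝ) → ℝ := fun l => logZ J (fun i => h i + l i) - ∑ i, l i * m i with hΦ
  have hcont : Continuous Φ := by
    refine Continuous.sub (Continuous.log ?_ fun l => (part_pos J _).ne') (by fun_prop)
    simp only [ham]
    fun_prop
  obtain ⟨x₀, -, hx₀⟩ := Finset.exists_min_image Finset.univ (ham J h) Finset.univ_nonempty
  set B := ham J h x₀
  have hlow : ∀ l i, B + (1 - |m i|) * |l i| ≤ Φ l := fun l i => by
    set x : ι → Bool := fun j => decide (0 ≤ l j)
    have hx : ∀ j, l j * spin (x j) = |l j| := fun j => by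
      by_cases hj : 0 ≤ l j
      · simp [x, spin, hj, abs_of_nonneg]
      · simp [x, spin, hj, abs_of_neg (not_le.1 hj)]
    have h1 : ham J h x + ∑ j, |l j| ≤ logZ J (fun i => h i + l i) := by
      rw [← Real.log_exp (ham J h x + ∑ j, |l j|)]
      refine Real.log_le_log (Real.exp_pos _) (le_trans (le_of_eq ?_)
        (Finset.single_le_sum (fun y _ => (Real.exp_pos _).le) (Finset.mem_univ x)))
      rw [ham_add, lin]; simp only [hx]
    have h2 : (1 - |m i|) * |l i| ≤ ∑ j, (|l j| - l j * m j) := by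
      refine le_trans ?_ (Finset.single_le_sum (fun j _ => ?_) (Finset.mem_univ i))
      · have := le_abs_self (l i * m i)
        rw [abs_mul] at this
        linarith
      · have := le_abs_self (l j * m j)
        rw [abs_mul] at this
        nlinarith [abs_nonneg (l j), hm j]
    rw [Finset.sum_sub_distrib] at h2
    have := hx₀ x (Finset.mem_univ _)
    simp only [hΦ]
    linarith
  set R : ι → ℝ := fun i => (|Φ 0| + |B| + 1) / (1 - |m i|)
  have hR : ∀ i, 0 ≤ R i := fun i => div_nonneg (by positivity) (by linarith [hm i])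
  obtain ⟨lam, -, hlam⟩ := (isCompact_univ_pi fun i => isCompact_Icc (a := -R i) (b := R i)).exists_isMinOn
    ⟨0, fun i _ => ⟨neg_nonpos.2 (hR i), hR i⟩⟩ hcont.continuousOn
  have hmin : ∀ l, Φ lam ≤ Φ l := fun l => by
    by_cases hl : ∀ i, |l i| ≤ R i
    · exact hlam fun i _ => abs_le.1 (hl i)
    · push Not at hl
      obtain ⟨i, hi⟩ := hl
      have h1 := hlow l i
      have h0 : Φ lam ≤ Φ 0 := hlam fun i _ => ⟨neg_nonpos.2 (hR i), hR i⟩
      rw [show R i = (|Φ 0| + |B| + 1) / (1 - |m i|) from rfl, div_lt_iff₀ (by linarith [hm i])] at hi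
      nlinarith [le_abs_self (Φ 0), neg_abs_le B]
  refine ⟨lam, ?_⟩
  set h' := fun i => h i + lam i with hh'
  set d := fun i => mag J h' i - m i with hd
  set S := ∑ i, |d i|
  set Q := ∑ i, d i ^ 2
  have hS0 : 0 ≤ S := Finset.sum_nonneg fun i _ => abs_nonneg _
  have key : ∀ r : ℝ, 0 < r → r * S ≤ 1 / 2 → Q ≤ r * (η / 2 * Q + 8 * (r * S ^ 3)) := by
    intro r hr hrS
    have hsum : ∑ i, |-(r * d i)| = r * S := by
      simp only [S, abs_neg, abs_mul, abs_of_pos hr, Finset.mul_sum]
    have h1 := logZ_add_le (h := h') hC (fun i => -(r * d i)) (by rw [hsum]; exact hrS)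
    have h2 := hmin (fun i => lam i + -(r * d i))
    simp only [hΦ] at h2
    rw [show (fun i => h i + (lam i + -(r * d i))) = fun i => h' i + -(r * d i) from
      funext fun i => by simp only [hh']; ring] at h2
    rw [hsum] at h1
    have e1 : ∑ i, -(r * d i) * mag J h' i - ∑ i, (lam i + -(r * d i)) * m i + ∑ i, lam i * m i
        = -(r * Q) := by
      simp only [Q, Finset.mul_sum, ← Finset.sum_sub_distrib, ← Finset.sum_add_distrib,
        ← Finset.sum_neg_distrib, hd]
      exact Finset.sum_congr rfl fun i _ => by ring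
    have e2 : ∑ i, (-(r * d i)) ^ 2 * (1 - mag J h' i ^ 2) ≤ r ^ 2 * Q := by
      rw [Finset.mul_sum]
      exact Finset.sum_le_sum fun i _ => by
        nlinarith [mul_nonneg (sq_nonneg (r * d i)) (sq_nonneg (mag J h' i))]
    have e3 : η / 2 * ∑ i, (-(r * d i)) ^ 2 * (1 - mag J h' i ^ 2) ≤ η / 2 * (r ^ 2 * Q) :=
      mul_le_mul_of_nonneg_left e2 (by linarith)
    have : r * Q ≤ r * (r * (η / 2 * Q + 8 * (r * S ^ 3))) := by nlinarith
    exact le_of_mul_le_mul_left this hr
  have hQ0 : 0 ≤ Q := Finset.sum_nonneg fun i _ => sq_nonneg _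
  have hQ : Q = 0 := by
    refine le_antisymm (le_of_forall_pos_le_add fun ε hε => ?_) hQ0
    have hS3 : 0 ≤ S ^ 3 := pow_nonneg hS0 3
    set r := min (min 1 (1 / (2 * (S + 1)))) (ε / (η / 2 * Q + 8 * S ^ 3 + 1))
    have hr : 0 < r := lt_min (lt_min one_pos (by positivity)) (by positivity)
    have hr1 : r ≤ 1 := (min_le_left _ _).trans (min_le_left _ _)
    have hr2 : r * (2 * (S + 1)) ≤ 1 :=
      (le_div_iff₀ (by positivity)).1 ((min_le_left _ _).trans (min_le_right _ _))
    have hr3 : r * (η / 2 * Q + 8 * S ^ 3 + 1) ≤ ε :=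
      (le_div_iff₀ (by positivity)).1 (min_le_right _ _)
    have := key r hr (by linarith)
    nlinarith [mul_le_mul_of_nonneg_right hr1 hS3]
  intro i
  have := (Finset.sum_eq_zero_iff_of_nonneg fun j _ => sq_nonneg (d j)).1 hQ i (Finset.mem_univ i)
  exact sub_eq_zero.1 (pow_eq_zero_iff two_ne_zero |>.1 this)

/-- The Gibbs variational bound. -/
theorem dual_le (lam : ι → ℝ) {f : (ι → Bool) → ℝ} (hf : ∀ x, 0 < f x) (h1 : mean J h f = 1) :
    ∑ i, lam i * mean J h (fun x => f x * spin (x i)) - (logZ J (fun i => h i + lam i) - logZ J h)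
      ≤ mean J h (fun x => phi (f x)) := by
  set c := logZ J (fun i => h i + lam i) - logZ J h with hc
  have key : ∀ x, f x * (lin lam x - c) - phi (f x)
      ≤ Real.exp (-c) * Real.exp (lin lam x) - f x := fun x => by
    have h2 := Real.log_le_sub_one_of_pos (div_pos (Real.exp_pos (lin lam x - c)) (hf x))
    rw [Real.log_div (Real.exp_pos _).ne' (hf x).ne', Real.log_exp] at h2
    have h3 := mul_le_mul_of_nonneg_left h2 (hf x).le
    simp only [mul_sub, mul_div_cancel₀ _ (hf x).ne', mul_one] at h3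
    rw [phi, ← Real.exp_add, neg_add_eq_sub, mul_sub]
    exact h3
  have hm := mean_mono (J := J) (h := h) key
  rw [mean_sub, mean_sub, mean_const_mul, mean_exp_lin, ← hc, ← Real.exp_add, neg_add_cancel,
    Real.exp_zero, h1, sub_self] at hm
  have e : mean J h (fun x => f x * (lin lam x - c))
      = ∑ i, lam i * mean J h (fun x => f x * spin (x i)) - c := by
    rw [show (fun x => f x * (lin lam x - c))
        = fun x => (∑ i, lam i * (f x * spin (x i))) - c * f x from funext fun x => by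
      rw [lin, mul_sub, Finset.mul_sum, mul_comm c]
      congr 1
      exact Finset.sum_congr rfl fun i _ => by ring]
    rw [mean_sub, mean_sum, mean_const_mul, h1, mul_one]
    simp only [mean_const_mul]
  linarith

/-- Entropic independence. -/
theorem sum_kfun_le (hC : CovBound J η) (hη : 0 < η) {f : (ι → Bool) → ℝ} (hf : ∀ x, 0 < f x)
    (h1 : mean J h f = 1) :
    ∑ i, kfun (mag J h i) (mean J h (fun x => f x * spin (x i)))
      ≤ η * mean J h (fun x => phi (f x)) := by
  set m0 := mag J h with hm0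
  set m1 := fun i => mean J h (fun x => f x * spin (x i)) with hm1
  set Δ := fun i => m1 i - m0 i with hΔ
  have hb1 : ∀ i, |m1 i| < 1 := fun i => by
    have key : ∀ b : Bool, 0 < mean J h (fun x => f x + spin b * (f x * spin (x i))) := fun b => by
      refine Finset.sum_pos' (fun x _ => mul_nonneg (weight_pos J h x).le ?_)
        ⟨fun _ => b, Finset.mem_univ _, mul_pos (weight_pos J h _) ?_⟩
      · have := hf x
        cases b <;> cases hx : x i <;> simp [spin, hx] <;> linarith
      · have := hf (fun _ => b)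
        cases b <;> simp [spin] <;> linarith
    have ht := key true
    have hf' := key false
    rw [mean_add, mean_const_mul, h1] at ht hf'
    simp only [spin, if_true, Bool.false_eq_true, if_false] at ht hf'
    rw [abs_lt]
    simp only [hm1, spin] at *
    constructor <;> linarith
  -- a uniform bound away from the boundary
  obtain ⟨M, hM1, hMb⟩ : ∃ M, M < 1 ∧ ∀ i, |m0 i| ≤ M ∧ |m1 i| ≤ M := by
    rcases isEmpty_or_nonempty ι with hι | hι
    · exact ⟨0, one_pos, fun i => hι.elim i⟩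
    · obtain ⟨i, -, hi⟩ := Finset.exists_max_image Finset.univ
        (fun i => max |m0 i| |m1 i|) Finset.univ_nonempty
      exact ⟨max |m0 i| |m1 i|, max_lt (abs_mag_lt i) (hb1 i), fun j =>
        ⟨(le_max_left _ _).trans (hi j (Finset.mem_univ j)),
          (le_max_right _ _).trans (hi j (Finset.mem_univ j))⟩⟩
  set seg : ℝ → ι → ℝ := fun s i => m0 i + s * Δ i with hseg
  have hsegb : ∀ s, 0 ≤ s → s ≤ 1 → ∀ i, |seg s i| ≤ M := fun s hs0 hs1 i => by
    obtain ⟨a1, a2⟩ := abs_le.1 (hMb i).1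
    obtain ⟨b1, b2⟩ := abs_le.1 (hMb i).2
    rw [abs_le]
    simp only [hseg, hΔ]
    constructor <;> nlinarith
  -- the step inequality
  set W : ι → ℝ := fun i => |Δ i| / (η * (1 - M ^ 2))
  set V := ∑ i, W i with hV
  set C₂ := ∑ i, 4 * |Δ i| ^ 3 / (1 - M) ^ 2 with hC₂
  set C := 8 * η * V ^ 3 + C₂ with hCdef
  set H : (ι → ℝ) → ℝ → ℝ := fun lam s =>
    η * (∑ i, lam i * seg s i - (logZ J (fun i => h i + lam i) - logZ J h))
      - ∑ i, kfun (m0 i) (seg s i) with hH
  set P : (ι → ℝ) → ℝ → ℝ := fun lam s =>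
    η * ∑ i, lam i * Δ i - ∑ i, kder (m0 i) (seg s i) * Δ i with hP
  have step : ∀ s t : ℝ, ∀ a b : ι → ℝ, 0 ≤ s → s ≤ 1 →
      (∀ i, mag J (fun i => h i + a i) i = seg s i) →
      (∀ i, mag J (fun i => h i + b i) i = seg t i) →
      |t - s| * V ≤ 1 / 2 → (∀ i, |t - s| * |Δ i| ≤ (1 - M) / 2) →
      H a s + (t - s) * P a s - C * |t - s| ^ 3 ≤ H b t := by
    intro s t a b hs0 hs1 ha hb hδV hδΔ
    set δ := t - s with hδ
    have hts : ∀ i, seg t i = seg s i + δ * Δ i := fun i => by simp only [hseg, hδ]; ring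
    have hD : ∀ i, 1 - M ^ 2 ≤ 1 - seg s i ^ 2 := fun i => by
      have := pow_le_pow_left₀ (abs_nonneg _) (hsegb s hs0 hs1 i) 2
      rw [sq_abs] at this
      linarith
    have hD0 : ∀ i, 0 < 1 - M ^ 2 := fun i => by
      have : 0 ≤ M := (abs_nonneg _).trans (hMb i).1
      nlinarith
    set u : ι → ℝ := fun i => δ * Δ i / (η * (1 - seg s i ^ 2)) with hu
    have huW : ∀ i, |u i| ≤ |δ| * W i := fun i => by
      have h0 := hD0 i
      have h0' : 0 < 1 - seg s i ^ 2 := h0.trans_le (hD i)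
      rw [hu, abs_div, abs_mul, abs_of_pos (mul_pos hη h0'), mul_div_assoc]
      exact mul_le_mul_of_nonneg_left (div_le_div_of_nonneg_left (abs_nonneg _) (by positivity)
        (mul_le_mul_of_nonneg_left (hD i) hη.le)) (abs_nonneg _)
    have huS : ∑ i, |u i| ≤ |δ| * V := by
      rw [hV, Finset.mul_sum]; exact Finset.sum_le_sum fun i _ => huW i
    have hA := logZ_add_le (h := fun i => h i + a i) hC u (huS.trans hδV)
    simp only [ha] at hA
    rw [show (fun i => h i + a i + u i) = fun i => h i + (a i + u i) from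
      funext fun i => by ring] at hA
    have hB := tilt_max hb (fun i => a i + u i)
    have hK : ∑ i, kfun (m0 i) (seg t i) ≤ ∑ i, kfun (m0 i) (seg s i)
        + δ * ∑ i, kder (m0 i) (seg s i) * Δ i
        + ∑ i, (δ * Δ i) ^ 2 / (2 * (1 - seg s i ^ 2)) + C₂ * |δ| ^ 3 := by
      rw [hC₂, Finset.mul_sum, Finset.sum_mul, ← Finset.sum_add_distrib, ← Finset.sum_add_distrib,
        ← Finset.sum_add_distrib]
      refine Finset.sum_le_sum fun i _ => ?_
      rw [hts i]
      refine (kfun_taylor hM1 (hsegb s hs0 hs1 i) (by rw [abs_mul]; exact hδΔ i)).trans (le_of_eq ?_)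
      rw [abs_mul]
      ring
    have hgain : η * ∑ i, u i * seg t i - η * ∑ i, u i * seg s i
        - η * (η / 2 * ∑ i, u i ^ 2 * (1 - seg s i ^ 2))
        = ∑ i, (δ * Δ i) ^ 2 / (2 * (1 - seg s i ^ 2)) := by
      simp only [Finset.mul_sum, ← Finset.sum_sub_distrib]
      refine Finset.sum_congr rfl fun i _ => ?_
      have h0' : 1 - seg s i ^ 2 ≠ 0 := ((hD0 i).trans_le (hD i)).ne'
      rw [hts i, hu]
      field_simp
      ring
    have e1 : ∑ i, (a i + u i) * seg t i
        = ∑ i, a i * seg s i + δ * ∑ i, a i * Δ i + ∑ i, u i * seg t i := by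
      rw [Finset.mul_sum, ← Finset.sum_add_distrib, ← Finset.sum_add_distrib]
      exact Finset.sum_congr rfl fun i _ => by rw [hts i]; ring
    rw [e1] at hB
    have h3 : (∑ i, |u i|) ^ 3 ≤ |δ| ^ 3 * V ^ 3 := by
      rw [← mul_pow]
      exact pow_le_pow_left₀ (Finset.sum_nonneg fun i _ => abs_nonneg _) huS 3
    have hA' := mul_le_mul_of_nonneg_left hA hη.le
    have hB' := mul_le_mul_of_nonneg_left hB hη.le
    have h3' := mul_le_mul_of_nonneg_left h3 hη.le
    simp only [hH, hP, hCdef]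
    linarith
  -- the endpoints, along a fine subdivision
  have hex : ∀ s, 0 ≤ s → s ≤ 1 → ∃ a : ι → ℝ, ∀ i, mag J (fun i => h i + a i) i = seg s i :=
    fun s hs0 hs1 => exists_tilt hC hη _ fun i => (hsegb s hs0 hs1 i).trans_lt hM1
  have hV0 : 0 ≤ V := Finset.sum_nonneg fun i _ => by
    have : 0 ≤ M := (abs_nonneg _).trans (hMb i).1
    exact div_nonneg (abs_nonneg _) (mul_nonneg hη.le (by nlinarith))
  have hC0 : 0 ≤ C := by
    have : 0 ≤ C₂ := Finset.sum_nonneg fun i _ => by positivity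
    positivity
  refine le_of_forall_pos_le_add fun ε hε => ?_
  obtain ⟨N, hN⟩ := exists_nat_gt (2 * V + ∑ i, 2 * |Δ i| / (1 - M) + 3 * C / ε + 1)
  have hsum0 : 0 ≤ ∑ i, 2 * |Δ i| / (1 - M) :=
    Finset.sum_nonneg fun i _ => div_nonneg (by positivity) (by linarith)
  have hCε : 0 ≤ 3 * C / ε := by positivity
  have hN0 : (0 : ℝ) < N := by linarith
  have hstepV : 1 / (N : ℝ) * V ≤ 1 / 2 := by rw [div_mul_eq_mul_div, div_le_iff₀ hN0]; linarith
  have hstepΔ : ∀ i, 1 / (N : ℝ) * |Δ i| ≤ (1 - M) / 2 := fun i => by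
    have h2 := Finset.single_le_sum (f := fun i => 2 * |Δ i| / (1 - M))
      (fun i _ => div_nonneg (by positivity) (by linarith)) (Finset.mem_univ i)
    have h3 : 2 * |Δ i| ≤ N * (1 - M) := by
      rw [← div_le_iff₀ (by linarith)]; linarith
    rw [div_mul_eq_mul_div, div_le_iff₀ hN0]
    linarith
  have hgrid : ∀ k : ℕ, ∃ a : ι → ℝ, (k = 0 → a = 0) ∧
      (k ≤ N → ∀ i, mag J (fun i => h i + a i) i = seg (k / N) i) := fun k => by
    rcases Nat.eq_zero_or_pos k with rfl | hk
    · refine ⟨0, fun _ => rfl, fun _ i => ?_⟩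
      simp [hseg, hm0]
    · by_cases hkN : k ≤ N
      · obtain ⟨a, ha⟩ := hex (k / N) (by positivity)
          ((div_le_one hN0).2 (by exact_mod_cast hkN))
        exact ⟨a, fun e => by omega, fun _ => ha⟩
      · exact ⟨0, fun _ => rfl, fun e => absurd e hkN⟩
  choose a ha0 ha using hgrid
  have hkb : ∀ k : ℕ, k ≤ N → 0 ≤ (k : ℝ) / N ∧ (k : ℝ) / N ≤ 1 := fun k hk =>
    ⟨by positivity, (div_le_one hN0).2 (by exact_mod_cast hk)⟩
  set d := 1 / (N : ℝ) with hd
  have hd0 : 0 ≤ d := by positivity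
  have hsucc : ∀ k : ℕ, ((k + 1 : ℕ) : ℝ) / N - k / N = d := fun k => by
    rw [hd]; push_cast; ring
  have main : ∀ k : ℕ, k ≤ N →
      -(2 * C * k * d ^ 2) ≤ P (a k) (k / N) ∧ -(3 * C * k * d ^ 2) ≤ H (a k) (k / N) := by
    intro k hk
    induction k with
    | zero =>
      simp [hP, hH, hseg, ha0 0 rfl, hm0, kfun_self, kder_self]
    | succ k ih =>
      obtain ⟨ih1, ih2⟩ := ih (by omega)
      have b1 := hkb k (by omega)
      have b2 := hkb (k + 1) hk
      have f1 := step (k / N) ((k + 1 : ℕ) / N) (a k) (a (k + 1)) b1.1 b1.2 (ha k (by omega))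
        (ha (k + 1) hk) (by rw [hsucc, abs_of_nonneg hd0]; exact hstepV)
        (fun i => by rw [hsucc, abs_of_nonneg hd0]; exact hstepΔ i)
      have f2 := step ((k + 1 : ℕ) / N) (k / N) (a (k + 1)) (a k) b2.1 b2.2 (ha (k + 1) hk)
        (ha k (by omega)) (by rw [abs_sub_comm, hsucc, abs_of_nonneg hd0]; exact hstepV)
        (fun i => by rw [abs_sub_comm, hsucc, abs_of_nonneg hd0]; exact hstepΔ i)
      rw [hsucc, abs_of_nonneg hd0] at f1
      rw [show (k : ℝ) / N - ((k + 1 : ℕ) : ℝ) / N = -d by linarith [hsucc k], abs_neg,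
        abs_of_nonneg hd0] at f2
      have hdpos : 0 < d := by positivity
      have hPk : P (a k) (k / N) - 2 * C * d ^ 2 ≤ P (a (k + 1)) ((k + 1 : ℕ) / N) := by
        refine le_of_mul_le_mul_left ?_ hdpos
        linarith
      refine ⟨by push_cast at hPk ⊢; linarith, ?_⟩
      have hdN : d * k ≤ 1 := by rw [hd, div_mul_eq_mul_div, one_mul]; exact b1.2
      have hd1 : d ≤ 1 := by
        rw [hd, div_le_one hN0]; linarith
      have g1 := mul_le_mul_of_nonneg_left ih1 hd0
      have g2 : C * d ^ 2 * (d * k) ≤ C * d ^ 2 * 1 := mul_le_mul_of_nonneg_left hdN (by positivity)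
      have g3 : C * d ^ 2 * d ≤ C * d ^ 2 * 1 := mul_le_mul_of_nonneg_left hd1 (by positivity)
      push_cast at f1 ⊢
      linarith
  have hfin := (main N le_rfl).2
  have hN1 : (N : ℝ) / N = 1 := div_self hN0.ne'
  rw [hN1] at hfin
  have hseg1 : ∀ i, seg 1 i = m1 i := fun i => by simp only [hseg, hΔ]; ring
  have hdual := mul_le_mul_of_nonneg_left (dual_le (J := J) (h := h) (a N) hf h1) hη.le
  simp only [hH, hseg1] at hfin
  have hCN : 3 * C * N * d ^ 2 ≤ ε := by
    rw [hd, show 3 * C * (N : ℝ) * (1 / N) ^ 2 = 3 * C / N by field_simp, div_le_iff₀ hN0]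
    have : 3 * C / ε ≤ N := by linarith
    rw [div_le_iff₀ hε] at this
    linarith
  simp only [hm1] at hfin ⊢
  linarith

theorem margEnt_eq (hJ : IsCoupling J) (i : ι) {f : (ι → Bool) → ℝ} (hf : ∀ x, 0 < f x) :
    margEnt J h i f
      = mean J h f * kfun (mag J h i) (mean J h (fun x => f x * spin (x i)) / mean J h f) := by
  have hw := margW_add (J := J) (h := h) i
  set F := fun s => mean (subJ J i) (subh J h i s) (fun y => f (glue i s y)) with hF
  have hFp : ∀ s, 0 < F s := fun s => mean_pos fun y => hf _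
  have hM : mean J h f = margW J h i true * F true + margW J h i false * F false := by
    rw [mean_glue hJ i f, Fintype.sum_bool]
  have hm : mean J h (fun x => f x * spin (x i))
      = margW J h i true * F true - margW J h i false * F false := by
    rw [mean_glue hJ i, Fintype.sum_bool]
    simp [glue_same, spin, hF, mean, sub_eq_add_neg]
  have ha : mag J h i = margW J h i true - margW J h i false := by
    rw [mag, mean_glue hJ i, Fintype.sum_bool]
    simp [glue_same, spin, mean_const, sub_eq_add_neg]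
  have hM0 : 0 < mean J h f := mean_pos hf
  set w₁ := margW J h i true
  set w₂ := margW J h i false
  have hw1 : 0 < w₁ := margW_pos i true
  have hw2 : 0 < w₂ := margW_pos i false
  set M := mean J h f
  have t1 : (1 + mag J h i) / 2 = w₁ := by rw [ha]; linarith
  have t2 : (1 - mag J h i) / 2 = w₂ := by rw [ha]; linarith
  have t3 : (1 + mean J h (fun x => f x * spin (x i)) / M) / 2 = w₁ * F true / M := by
    field_simp; rw [hm, hM]; ring
  have t4 : (1 - mean J h (fun x => f x * spin (x i)) / M) / 2 = w₂ * F false / M := by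
    field_simp; rw [hm, hM]; ring
  rw [kfun, t1, t2, t3, t4, margEnt, Fintype.sum_bool]
  simp only [phi]
  show w₁ * (F true * Real.log (F true)) + w₂ * (F false * Real.log (F false))
    - M * Real.log M = _
  rw [Real.log_div (mul_pos hw1 (hFp true)).ne' hM0.ne', Real.log_div (mul_pos hw2 (hFp false)).ne'
    hM0.ne', Real.log_mul hw1.ne' (hFp true).ne', Real.log_mul hw2.ne' (hFp false).ne']
  field_simp
  rw [hM]
  ring

/-- The sum of the marginal entropies is at most `η` times the entropy. -/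
theorem sum_margEnt_le (hJ : IsCoupling J) (hC : CovBound J η) (hη : 0 < η)
    {f : (ι → Bool) → ℝ} (hf : ∀ x, 0 < f x) :
    ∑ i, margEnt J h i f ≤ η * ent J h f := by
  set M := mean J h f with hM
  have hM0 : 0 < M := mean_pos hf
  have hg : ∀ x, 0 < M⁻¹ * f x := fun x => mul_pos (inv_pos.2 hM0) (hf x)
  have h1 : mean J h (fun x => M⁻¹ * f x) = 1 := by
    rw [mean_const_mul, ← hM, inv_mul_cancel₀ hM0.ne']
  have key := mul_le_mul_of_nonneg_left (sum_kfun_le (h := h) hC hη hg h1) hM0.le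
  have e1 : ∀ i, mean J h (fun x => M⁻¹ * f x * spin (x i))
      = mean J h (fun x => f x * spin (x i)) / M := fun i => by
    simp only [mul_assoc]
    rw [mean_const_mul, div_eq_inv_mul]
  have e2 : mean J h (fun x => phi (M⁻¹ * f x))
      = M⁻¹ * (mean J h (fun x => phi (f x)) - Real.log M * M) := by
    rw [show (fun x => phi (M⁻¹ * f x)) = fun x => M⁻¹ * (phi (f x) - Real.log M * f x) from
      funext fun x => by
        rw [phi, phi, Real.log_mul (inv_pos.2 hM0).ne' (hf x).ne', Real.log_inv]; ring]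
    rw [mean_const_mul, mean_sub, mean_const_mul, ← hM]
  simp only [e1, e2, Finset.mul_sum] at key
  rw [Finset.sum_congr rfl fun i _ => margEnt_eq hJ i hf, ← hM, ent, ← hM]
  refine key.trans (le_of_eq ?_)
  rw [phi]
  field_simp

end Vale.Agent.P150.Fast.Ent
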