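import Vale.Agent.P150.Fast.Defs

/-!
# P150 fast side (B): elementary facts on finite Ising measures

Tilts, splitting off one site, invariance and self-adjointness of the one-site averages.
-/

open Finset

namespace Vale.Agent.P150.Fast.Ent

variable {ι : Type} [Fintype ι] [DecidableEq ι]

/-- Logarithm of the partition function. -/
noncomputable def logZ (J : ι → ι → ℝ) (h : ι → ℝ) : ℝ :=
  Real.log (∑ x, Real.exp (ham J h x))

/-- A linear statistic. -/
noncomputable def lin (u : ι → ℝ) (x : ι → Bool) : ℝ := ∑ i, u i * spin (x i)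

/-- The magnetisation at a site. -/
noncomputable def mag (J : ι → ι → ℝ) (h : ι → ℝ) (i : ι) : ℝ :=
  mean J h (fun x => spin (x i))

variable {J : ι → ι → ℝ} {h : ι → ℝ}

theorem abs_spin_eq (b : Bool) : |spin b| = 1 := by cases b <;> simp [spin]

theorem spin_sq_eq (b : Bool) : spin b ^ 2 = 1 := by cases b <;> simp [spin]

theorem part_pos (J : ι → ι → ℝ) (h : ι → ℝ) : 0 < ∑ x, Real.exp (ham J h x) :=
  Finset.sum_pos (fun x _ => Real.exp_pos _) Finset.univ_nonempty

theorem weight_eq (x : ι → Bool) : weight J h x = Real.exp (ham J h x - logZ J h) := by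
  rw [Real.exp_sub, logZ, Real.exp_log (part_pos J h), weight]

theorem weight_pos (J : ι → ι → ℝ) (h : ι → ℝ) (x : ι → Bool) : 0 < weight J h x :=
  div_pos (Real.exp_pos _) (part_pos J h)

theorem sum_weight (J : ι → ι → ℝ) (h : ι → ℝ) : ∑ x, weight J h x = 1 := by
  simp only [weight]
  rw [← Finset.sum_div, div_self (part_pos J h).ne']

theorem mean_add (f g : (ι → Bool) → ℝ) :
    mean J h (fun x => f x + g x) = mean J h f + mean J h g := by
  simp only [mean, mul_add, Finset.sum_add_distrib]

theorem mean_sub (f g : (ι → Bool) → ℝ) :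
    mean J h (fun x => f x - g x) = mean J h f - mean J h g := by
  simp only [mean, mul_sub, Finset.sum_sub_distrib]

theorem mean_const (c : ℝ) : mean J h (fun _ => c) = c := by
  rw [mean, ← Finset.sum_mul, sum_weight, one_mul]

theorem mean_const_mul (c : ℝ) (f : (ι → Bool) → ℝ) :
    mean J h (fun x => c * f x) = c * mean J h f := by
  simp only [mean, Finset.mul_sum]
  exact Finset.sum_congr rfl fun x _ => by ring

theorem mean_mono {f g : (ι → Bool) → ℝ} (hfg : ∀ x, f x ≤ g x) :
    mean J h f ≤ mean J h g :=
  Finset.sum_le_sum fun x _ => mul_le_mul_of_nonneg_left (hfg x) (weight_pos J h x).le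

theorem mean_pos {f : (ι → Bool) → ℝ} (hf : ∀ x, 0 < f x) : 0 < mean J h f :=
  Finset.sum_pos (fun x _ => mul_pos (weight_pos J h x) (hf x)) Finset.univ_nonempty

theorem mean_sum {α : Type} (s : Finset α) (F : α → (ι → Bool) → ℝ) :
    mean J h (fun x => ∑ a ∈ s, F a x) = ∑ a ∈ s, mean J h (F a) := by
  simp only [mean, Finset.mul_sum]
  exact Finset.sum_comm

theorem mean_lin (u : ι → ℝ) : mean J h (lin u) = ∑ i, u i * mag J h i := by
  show mean J h (fun x => ∑ i, u i * spin (x i)) = _
  rw [mean_sum]
  exact Finset.sum_congr rfl fun i _ => mean_const_mul _ _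

theorem var_spin (i : ι) : var J h (fun x => spin (x i)) = 1 - mag J h i ^ 2 := by
  have e : ∀ x : ι → Bool, (spin (x i) - mag J h i) ^ 2
      = (1 + mag J h i ^ 2) - 2 * mag J h i * spin (x i) := fun x => by
    have := spin_sq_eq (x i)
    linear_combination this
  rw [var]
  show mean J h (fun x => (spin (x i) - mag J h i) ^ 2) = _
  simp only [e]
  rw [mean_sub, mean_const, mean_const_mul]
  show _ - 2 * mag J h i * mag J h i = _
  ring

theorem abs_mag_lt (i : ι) : |mag J h i| < 1 := by
  have key : ∀ b : Bool, 0 < mean J h (fun x => 1 + spin b * spin (x i)) := fun b => by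
    refine Finset.sum_pos' (fun x _ => mul_nonneg (weight_pos J h x).le ?_)
      ⟨fun _ => b, Finset.mem_univ _, mul_pos (weight_pos J h _) ?_⟩
    · cases b <;> cases hx : x i <;> simp [spin, hx]
    · cases b <;> norm_num [spin]
  have ht := key true
  have hf := key false
  rw [mean_add, mean_const, mean_const_mul] at ht hf
  simp only [spin, if_true, Bool.false_eq_true, if_false] at ht hf
  rw [abs_lt]
  simp only [mag, spin] at *
  constructor <;> linarith

theorem ham_add (u : ι → ℝ) (x : ι → Bool) :
    ham J (fun i => h i + u i) x = ham J h x + lin u x := by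
  simp only [ham, lin, add_mul, Finset.sum_add_distrib]
  ring

/-- The partition function of a tilt. -/
theorem mean_exp_lin (u : ι → ℝ) :
    mean J h (fun x => Real.exp (lin u x))
      = Real.exp (logZ J (fun i => h i + u i) - logZ J h) := by
  rw [Real.exp_sub, logZ, logZ, Real.exp_log (part_pos J _), Real.exp_log (part_pos J h),
    Finset.sum_div, mean]
  refine Finset.sum_congr rfl fun x _ => ?_
  rw [weight, div_mul_eq_mul_div, ← Real.exp_add, ham_add]

section split

/-- The sites other than `i`. -/
abbrev Rest (i : ι) : Type := {j : ι // j ≠ i}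

/-- The configuration with value `s` at `i` and `y` elsewhere. -/
def glue (i : ι) (s : Bool) (y : Rest i → Bool) : ι → Bool :=
  (Equiv.funSplitAt i Bool).symm (s, y)

theorem glue_same (i : ι) (s : Bool) (y : Rest i → Bool) : glue i s y i = s := by
  simp [glue, Equiv.funSplitAt, Equiv.piSplitAt]

theorem glue_rest (i : ι) (s : Bool) (y : Rest i → Bool) (j : Rest i) :
    glue i s y j.1 = y j := by
  simp [glue, Equiv.funSplitAt, Equiv.piSplitAt, j.2]

theorem sum_glue (i : ι) (F : (ι → Bool) → ℝ) :
    ∑ x, F x = ∑ s, ∑ y, F (glue i s y) := by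
  rw [← Equiv.sum_comp (Equiv.funSplitAt i Bool).symm F, Fintype.sum_prod_type]
  rfl

theorem update_glue_same (i : ι) (s b : Bool) (y : Rest i → Bool) :
    Function.update (glue i s y) i b = glue i b y := by
  funext j
  by_cases hj : j = i
  · subst hj; simp [glue_same]
  · rw [Function.update_of_ne hj]
    exact (glue_rest i s y ⟨j, hj⟩).trans (glue_rest i b y ⟨j, hj⟩).symm

theorem update_glue_rest (i : ι) (s b : Bool) (y : Rest i → Bool) (j : Rest i) :
    Function.update (glue i s y) j.1 b = glue i s (Function.update y j b) := by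
  funext k
  by_cases hk : k = i
  · subst hk
    rw [Function.update_of_ne (fun e => j.2 e.symm), glue_same, glue_same]
  · rw [glue_rest i s (Function.update y j b) ⟨k, hk⟩]
    by_cases hkj : k = j.1
    · subst hkj; simp
    · rw [Function.update_of_ne hkj, Function.update_of_ne (fun e => hkj (congrArg Subtype.val e))]
      exact glue_rest i s y ⟨k, hk⟩

/-- The couplings among the other sites. -/
def subJ (J : ι → ι → ℝ) (i : ι) : Rest i → Rest i → ℝ := fun a b => J a.1 b.1

/-- The fields on the other sites, given the spin at `i`. -/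
noncomputable def subh (J : ι → ι → ℝ) (h : ι → ℝ) (i : ι) (s : Bool) : Rest i → ℝ :=
  fun a => h a.1 + spin s * J a.1 i

/-- The law of the spin at `i`. -/
noncomputable def margW (J : ι → ι → ℝ) (h : ι → ℝ) (i : ι) (s : Bool) : ℝ :=
  ∑ y, weight J h (glue i s y)

theorem ham_glue (hJ : IsCoupling J) (i : ι) (s : Bool) (y : Rest i → Bool) :
    ham J h (glue i s y) = h i * spin s + ham (subJ J i) (subh J h i s) y := by
  simp only [ham]
  rw [Fintype.sum_eq_add_sum_subtype_ne (fun k => h k * spin (glue i s y k)) i,
    Fintype.sum_eq_add_sum_subtype_ne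
      (fun k => ∑ l, J k l * spin (glue i s y k) * spin (glue i s y l)) i]
  simp only [glue_same, glue_rest]
  rw [Fintype.sum_eq_add_sum_subtype_ne
      (fun l => J i l * spin s * spin (glue i s y l)) i]
  simp only [glue_same, glue_rest, hJ.2 i, zero_mul, zero_add]
  have e : ∀ a : Rest i, ∑ l, J a.1 l * spin (y a) * spin (glue i s y l)
      = J a.1 i * spin (y a) * spin s + ∑ b : Rest i, J a.1 b.1 * spin (y a) * spin (y b) := fun a => by
    rw [Fintype.sum_eq_add_sum_subtype_ne
      (fun l => J a.1 l * spin (y a) * spin (glue i s y l)) i]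
    simp only [glue_same, glue_rest]
  rw [Finset.sum_congr rfl fun a _ => e a, Finset.sum_add_distrib]
  have e1 : ∑ a : Rest i, J i a.1 * spin s * spin (y a)
      = ∑ a : Rest i, J a.1 i * spin (y a) * spin s :=
    Finset.sum_congr rfl fun a _ => by rw [hJ.1 i a.1]; ring
  have e2 : ∑ a : Rest i, subh J h i s a * spin (y a)
      = ∑ a : Rest i, h a.1 * spin (y a) + ∑ a : Rest i, J a.1 i * spin (y a) * spin s := by
    rw [← Finset.sum_add_distrib]
    exact Finset.sum_congr rfl fun a _ => by simp only [subh]; ring
  rw [e1, e2]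
  simp only [subJ]
  ring

theorem weight_glue (hJ : IsCoupling J) (i : ι) (s : Bool) (y : Rest i → Bool) :
    weight J h (glue i s y) = margW J h i s * weight (subJ J i) (subh J h i s) y := by
  have hS := part_pos (subJ J i) (subh J h i s)
  have e : ∀ z, weight J h (glue i s z)
      = Real.exp (h i * spin s) * Real.exp (ham (subJ J i) (subh J h i s) z)
        / ∑ x, Real.exp (ham J h x) := fun z => by
    rw [weight, ham_glue hJ, Real.exp_add]
  simp only [margW, e]
  rw [← Finset.sum_div, ← Finset.mul_sum, weight]
  field_simp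

theorem mean_glue (hJ : IsCoupling J) (i : ι) (F : (ι → Bool) → ℝ) :
    mean J h F
      = ∑ s, margW J h i s * mean (subJ J i) (subh J h i s) (fun y => F (glue i s y)) := by
  rw [mean, sum_glue i]
  refine Finset.sum_congr rfl fun s _ => ?_
  rw [mean, Finset.mul_sum]
  exact Finset.sum_congr rfl fun y _ => by rw [weight_glue hJ]; ring

theorem margW_pos (i : ι) (s : Bool) : 0 < margW J h i s :=
  Finset.sum_pos (fun _ _ => weight_pos J h _) Finset.univ_nonempty

theorem margW_add (i : ι) : margW J h i true + margW J h i false = 1 := by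
  rw [← sum_weight J h, sum_glue i, Fintype.sum_bool]
  rfl

theorem subJ_isCoupling (hJ : IsCoupling J) (i : ι) : IsCoupling (subJ J i) :=
  ⟨fun a b => hJ.1 a.1 b.1, fun a => hJ.2 a.1⟩

theorem field_glue_same (hJ : IsCoupling J) (i : ι) (s : Bool) (y : Rest i → Bool) :
    field J h i (glue i s y) = h i + ∑ a : Rest i, J i a.1 * spin (y a) := by
  rw [field, Fintype.sum_eq_add_sum_subtype_ne (fun l => J i l * spin (glue i s y l)) i]
  simp [glue_same, glue_rest, hJ.2 i]

theorem field_glue_rest (i : ι) (s : Bool) (y : Rest i → Bool) (j : Rest i) :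
    field J h j.1 (glue i s y) = field (subJ J i) (subh J h i s) j y := by
  rw [field, Fintype.sum_eq_add_sum_subtype_ne (fun l => J j.1 l * spin (glue i s y l)) i]
  simp only [glue_same, glue_rest, field, subh, subJ]
  ring

theorem cond_glue_rest (i : ι) (s : Bool) (y : Rest i → Bool) (j : Rest i)
    (f : (ι → Bool) → ℝ) :
    cond J h j.1 f (glue i s y)
      = cond (subJ J i) (subh J h i s) j (fun z => f (glue i s z)) y := by
  simp only [cond, cmean, field_glue_rest, update_glue_rest]

end split

theorem half_tanh (d : ℝ) :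
    (1 + Real.tanh d) / 2 = Real.exp d / (Real.exp d + Real.exp (-d)) ∧
      (1 - Real.tanh d) / 2 = Real.exp (-d) / (Real.exp d + Real.exp (-d)) := by
  have := Real.exp_pos d
  have := Real.exp_pos (-d)
  rw [Real.tanh_eq_sinh_div_cosh, Real.sinh_eq, Real.cosh_eq]
  constructor <;> field_simp <;> ring

/-- A one-site average does not change the mean. -/
theorem mean_cond (hJ : IsCoupling J) (i : ι) (g : (ι → Bool) → ℝ) :
    mean J h (cond J h i g) = mean J h g := by
  rw [mean, mean, sum_glue i, sum_glue i, Fintype.sum_bool, Fintype.sum_bool,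
    ← Finset.sum_add_distrib, ← Finset.sum_add_distrib]
  refine Finset.sum_congr rfl fun y _ => ?_
  set a := ∑ b : Rest i, J i b.1 * spin (y b) with ha
  have hc : ∀ s, cmean J h i (glue i s y) = Real.tanh (h i + a) := fun s => by
    rw [cmean, field_glue_same hJ]
  have hh : ∀ s, ham J h (glue i s y) = spin s * (h i + a)
      + ham (subJ J i) (fun b => h b.1) y := fun s => by
    rw [ham_glue hJ]
    simp only [ham, subh, add_mul, Finset.sum_add_distrib, ha]
    have : ∑ x : Rest i, spin s * J x.1 i * spin (y x)
        = spin s * ∑ b : Rest i, J i b.1 * spin (y b) := by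
      rw [Finset.mul_sum]
      exact Finset.sum_congr rfl fun b _ => by rw [hJ.1 i b.1]; ring
    rw [this]; ring
  have hw : ∀ s, weight J h (glue i s y) = Real.exp (spin s * (h i + a))
      * Real.exp (ham (subJ J i) (fun b => h b.1) y - logZ J h) := fun s => by
    rw [weight_eq, hh, ← Real.exp_add]; ring_nf
  simp only [cond, update_glue_same, hc, hw, spin, if_true, Bool.false_eq_true, if_false, one_mul,
    neg_mul, (half_tanh (h i + a)).1, (half_tanh (h i + a)).2]
  have := Real.exp_pos (h i + a)
  have := Real.exp_pos (-(h i + a))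
  field_simp

theorem cond_update (hJ : IsCoupling J) (i : ι) (b : Bool) (g : (ι → Bool) → ℝ) (x : ι → Bool) :
    cond J h i g (Function.update x i b) = cond J h i g x := by
  have hf : field J h i (Function.update x i b) = field J h i x := by
    simp only [field]
    congr 1
    refine Finset.sum_congr rfl fun j _ => ?_
    by_cases hj : j = i
    · subst hj; simp [hJ.2]
    · rw [Function.update_of_ne hj]
  simp only [cond, cmean, hf, Function.update_idem]

/-- A one-site average is an orthogonal projection. -/
theorem mean_mul_cond (hJ : IsCoupling J) (i : ι) (g k : (ι → Bool) → ℝ) :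
    mean J h (fun x => g x * cond J h i k x)
      = mean J h (fun x => cond J h i g x * cond J h i k x) := by
  rw [← mean_cond hJ i]
  congr 1
  funext x
  show cond J h i (fun x => g x * cond J h i k x) x = cond J h i g x * cond J h i k x
  conv_lhs => rw [cond]
  simp only [cond_update hJ]
  conv_rhs => arg 1; rw [cond]
  ring

theorem mean_cond_symm (hJ : IsCoupling J) (i : ι) (g k : (ι → Bool) → ℝ) :
    mean J h (fun x => g x * cond J h i k x) = mean J h (fun x => k x * cond J h i g x) := by
  rw [mean_mul_cond hJ i g k, mean_mul_cond hJ i k g]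
  congr 1
  funext x
  ring

end Vale.Agent.P150.Fast.Ent
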