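import Vale.Agent.P150.Fast.Ent.Indep

/-!
# P150 fast side (B): tensorization of entropy by induction on the number of sites
-/

open Finset

namespace Vale.Agent.P150.Fast.Ent

section basic

variable {κ : Type} [Fintype κ] [DecidableEq κ] {J : κ → κ → ℝ} {h : κ → ℝ}

theorem ent_eq_sum (hJ : IsCoupling J) (i : κ) (f : (κ → Bool) → ℝ) :
    ent J h f = ∑ s, margW J h i s * ent (subJ J i) (subh J h i s) (fun y => f (glue i s y))
      + margEnt J h i f := by
  simp only [ent, margEnt]
  rw [mean_glue hJ i (fun x => phi (f x))]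
  simp only [mul_sub, Finset.sum_sub_distrib]
  ring

theorem entAt_glue (hJ : IsCoupling J) (i : κ) (a : Rest i) (f : (κ → Bool) → ℝ) :
    ∑ s, margW J h i s * entAt (subJ J i) (subh J h i s) a (fun y => f (glue i s y))
      = entAt J h a.1 f := by
  simp only [entAt, mul_sub, Finset.sum_sub_distrib]
  rw [mean_glue hJ i (fun x => phi (f x)), mean_glue hJ i (fun x => phi (cond J h a.1 f x))]
  simp only [cond_glue_rest]

/-- With at most one site, tensorization is trivial. -/
theorem ent_small (hJ : IsCoupling J) (hk : Fintype.card κ ≤ 1) (f : (κ → Bool) → ℝ) :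
    ent J h f = ∑ j, entAt J h j f := by
  rcases isEmpty_or_nonempty κ with hκ | ⟨⟨i⟩⟩
  · have e : ∀ F : (κ → Bool) → ℝ, F = fun _ => F default := fun F =>
      funext fun x => congrArg F (Subsingleton.elim _ _)
    rw [Finset.univ_eq_empty, Finset.sum_empty, ent, e f]
    simp only [mean_const, sub_self]
  · haveI : Subsingleton κ := Fintype.card_le_one_iff_subsingleton.1 hk
    rw [Fintype.sum_subsingleton _ i, ent, entAt]
    have hc : ∀ x, cond J h i f x = mean J h f := fun x => by
      have e : ∀ y, cond J h i f y = cond J h i f x := fun y => by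
        rw [← cond_update hJ i (x i) f y]
        congr 1
        funext j
        rw [Subsingleton.elim j i, Function.update_self]
      rw [← mean_cond hJ i f, show cond J h i f = fun _ => cond J h i f x from funext e, mean_const]
    simp only [hc, mean_const]

end basic

variable {ι : Type} [Fintype ι] [DecidableEq ι]

/-- Entropy tensorizes for every restriction and every field. -/
theorem tensor_aux (J : ι → ι → ℝ) (η : ℕ → ℝ) (hJ : IsCoupling J) (hA : AllCovBound J η)
    (hη : ∀ m, 2 ≤ m → m ≤ Fintype.card ι → 1 ≤ η m ∧ η m < m) :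
    ∀ (n : ℕ) {κ : Type} [Fintype κ] [DecidableEq κ] (e : κ ↪ ι) (h : κ → ℝ)
      (f : (κ → Bool) → ℝ), Fintype.card κ = n → (∀ x, 0 < f x) →
      0 ≤ atConst η n ∧
      ent (fun a b => J (e a) (e b)) h f
        ≤ atConst η n * ∑ j, entAt (fun a b => J (e a) (e b)) h j f := by
  intro n
  induction n with
  | zero =>
    intro κ _ _ e h f hk _
    simp [atConst, ent_small (⟨fun a b => hJ.1 _ _, fun a => hJ.2 _⟩ :
      IsCoupling fun a b => J (e a) (e b)) (by omega : Fintype.card κ ≤ 1)]
  | succ n ih =>
    intro κ _ _ e h f hk hf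
    set K := fun a b => J (e a) (e b) with hK
    have hKc : IsCoupling K := ⟨fun a b => hJ.1 _ _, fun a => hJ.2 _⟩
    rcases Nat.eq_zero_or_pos n with rfl | hn
    · simp [atConst, ent_small hKc (by omega : Fintype.card κ ≤ 1)]
    have hcard : n + 1 ≤ Fintype.card ι := hk ▸ Fintype.card_le_of_embedding e
    obtain ⟨hη1, hη2⟩ := hη (n + 1) (by omega) hcard
    have hC : CovBound K (η (n + 1)) := hk ▸ hA e
    have hkRest : ∀ i : κ, Fintype.card (Rest i) = n := fun i => by
      simp [hk]
    have hsub : ∀ i s, 0 ≤ atConst η n ∧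
        ent (subJ K i) (subh K h i s) (fun y => f (glue i s y))
          ≤ atConst η n * ∑ a, entAt (subJ K i) (subh K h i s) a (fun y => f (glue i s y)) :=
      fun i s => ih ((Function.Embedding.subtype _).trans e) (subh K h i s) _ (hkRest i)
        (fun y => hf _)
    obtain ⟨i₀⟩ : Nonempty κ := Fintype.card_pos_iff.1 (by omega)
    have hC0 : 0 ≤ atConst η n := (hsub i₀ true).1
    have hrec : atConst η (n + 1) = atConst η n * ((n : ℝ) / ((n + 1 : ℕ) - η (n + 1))) := by
      rw [atConst, atConst, Finset.prod_Icc_succ_top (by omega)]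
      push_cast
      ring_nf
    have hden : (0 : ℝ) < ((n + 1 : ℕ) : ℝ) - η (n + 1) := by linarith
    refine ⟨hrec ▸ mul_nonneg hC0 (div_nonneg n.cast_nonneg hden.le), ?_⟩
    set T := ∑ j, entAt K h j f with hT
    have hmain : ((n + 1 : ℕ) : ℝ) * ent K h f
        ≤ η (n + 1) * ent K h f + atConst η n * ((n : ℝ) * T) := by
      calc ((n + 1 : ℕ) : ℝ) * ent K h f = ∑ _i : κ, ent K h f := by simp [hk]
        _ = ∑ i, margEnt K h i f
              + ∑ i, ∑ s, margW K h i s * ent (subJ K i) (subh K h i s) (fun y => f (glue i s y)) := by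
            rw [← Finset.sum_add_distrib]
            exact Finset.sum_congr rfl fun i _ => by rw [ent_eq_sum hKc i f]; ring
        _ ≤ η (n + 1) * ent K h f
              + ∑ i, ∑ s, margW K h i s * (atConst η n
                * ∑ a, entAt (subJ K i) (subh K h i s) a (fun y => f (glue i s y))) :=
            add_le_add (sum_margEnt_le hKc hC (by linarith) hf)
              (Finset.sum_le_sum fun i _ => Finset.sum_le_sum fun s _ =>
                mul_le_mul_of_nonneg_left (hsub i s).2 (margW_pos i s).le)
        _ = η (n + 1) * ent K h f + atConst η n * ∑ i, (T - entAt K h i f) := by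
            congr 1
            rw [Finset.mul_sum]
            refine Finset.sum_congr rfl fun i _ => ?_
            rw [hT, Fintype.sum_eq_add_sum_subtype_ne (fun j => entAt K h j f) i, add_sub_cancel_left,
              ← Finset.sum_congr rfl fun a _ => entAt_glue hKc i a f, Finset.mul_sum]
            simp only [Finset.mul_sum]
            rw [Finset.sum_comm]
            exact Finset.sum_congr rfl fun s _ => Finset.sum_congr rfl fun a _ => by ring
        _ = η (n + 1) * ent K h f + atConst η n * ((n : ℝ) * T) := by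
            rw [Finset.sum_sub_distrib, ← hT, Finset.sum_const, Finset.card_univ, hk, nsmul_eq_mul]
            push_cast; ring
    rw [hrec, mul_assoc, div_mul_eq_mul_div, ← mul_div_assoc, le_div_iff₀ hden]
    nlinarith

/-- Tensorization of entropy. -/
theorem tensor (J : ι → ι → ℝ) (η : ℕ → ℝ) (hJ : IsCoupling J) (hA : AllCovBound J η)
    (hη : ∀ m, 2 ≤ m → m ≤ Fintype.card ι → 1 ≤ η m ∧ η m < m) (h : ι → ℝ)
    {f : (ι → Bool) → ℝ} (hf : ∀ x, 0 < f x) :
    0 ≤ atConst η (Fintype.card ι) ∧
      ent J h f ≤ atConst η (Fintype.card ι) * ∑ j, entAt J h j f :=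
  tensor_aux J η hJ hA hη _ (Function.Embedding.refl ι) h f rfl hf

theorem atConst_pos (η : ℕ → ℝ) (n : ℕ)
    (hη : ∀ m, 2 ≤ m → m ≤ n → 1 ≤ η m ∧ η m < m) : 0 < atConst η n := by
  refine Finset.prod_pos fun m hm => ?_
  obtain ⟨h2, hn⟩ := Finset.mem_Icc.1 hm
  obtain ⟨_, h⟩ := hη m h2 hn
  have : (2 : ℝ) ≤ m := by exact_mod_cast h2
  exact div_pos (by linarith) (by linarith)

end Vale.Agent.P150.Fast.Ent
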